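import Mathlib.Analysis.SpecialFunctions.Log.NegMulLog
import Mathlib.MeasureTheory.Measure.Real

/-!
# P108: the Kolmogorov-Sinai entropy by finite partitions
-/

open MeasureTheory Set Filter Topology
open scoped ENNReal

namespace Vale.Agent.P108L

variable {X : Type} [MeasurableSpace X]

/-- `P` is a finite partition of `X` into measurable sets. -/
def IsPartition {d : ℕ} (P : Fin d → Set X) : Prop :=
  (∀ i, MeasurableSet (P i)) ∧ ∀ x, ∃! i, x ∈ P i

/-- The entropy `-∑ μ(A) log μ(A)` of the partition `P ∨ T⁻¹ P ∨ ⋯ ∨ T^{-(n-1)} P`. -/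
noncomputable def joinEnt (μ : Measure X) (T : X → X) {d : ℕ} (P : Fin d → Set X) (n : ℕ) : ℝ :=
  ∑ a : Fin n → Fin d, Real.negMulLog (μ.real (⋂ i : Fin n, T^[i] ⁻¹' P (a i)))

/-- `h` is the entropy `h_μ(T, P)` of `T` with respect to the partition `P`. -/
def IsRate (μ : Measure X) (T : X → X) {d : ℕ} (P : Fin d → Set X) (h : ℝ) : Prop :=
  Tendsto (fun n : ℕ => joinEnt μ T P n / n) atTop (𝓝 h)

/-- The Kolmogorov-Sinai entropy: the supremum of `h_μ(T, P)` over the finite partitions `P`. -/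
noncomputable def hKS (μ : Measure X) (T : X → X) : ℝ≥0∞ :=
  ⨆ (d : ℕ) (P : Fin d → Set X) (_ : IsPartition P) (h : ℝ) (_ : IsRate μ T P h), ENNReal.ofReal h

end Vale.Agent.P108L
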