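import Vale.Agent.P108L5.Defs
import Vale.Agent.P108.Tor.SinaiKS
import Vale.Agent.P109.H787.Shannon
import Mathlib.Analysis.Subadditive

/-!
# P108: the limit in the definition of the entropy exists
-/

open MeasureTheory Set Filter Topology

namespace Vale.Agent.P108L

open Vale.Agent.P109.KS Vale.Agent.P108.Tor

variable {X : Type} [MeasurableSpace X] {μ : Measure X} {T : X → X} {d : ℕ}

theorem joinEnt_eq (f : X → Fin d) (n : ℕ) :
    joinEnt μ T (fun i => f ⁻¹' {i}) n = shannon μ (name T f n) := by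
  refine Finset.sum_congr rfl fun a _ => ?_
  congr 2
  ext x
  simp [name, funext_iff]

theorem part_of {f : X → Fin d} (hf : Measurable f) : IsPartition fun i => f ⁻¹' {i} :=
  ⟨fun i => hf (measurableSet_singleton i), fun x => ⟨f x, rfl, fun _ h => Eq.symm h⟩⟩

theorem IsPartition.fn {P : Fin d → Set X} (h : IsPartition P) :
    ∃ f : X → Fin d, Measurable f ∧ P = fun i => f ⁻¹' {i} := by
  choose f hf hu using h.2
  have e : P = fun i => f ⁻¹' {i} :=
    funext fun i => Set.ext fun x => ⟨fun k => (hu x i k).symm, fun k => (k : f x = i) ▸ hf x⟩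
  exact ⟨f, measurable_to_countable' fun i => congrFun e i ▸ h.1 i, e⟩

variable [IsProbabilityMeasure μ] (hT : MeasurePreserving T μ μ)
include hT

theorem name_add {f : X → Fin d} (hf : Measurable f) (m n : ℕ) :
    shannon μ (name T f (m + n)) ≤ shannon μ (name T f m) + shannon μ (name T f n) := by
  have k : ∀ n a, MeasurableSet (name T f n ⁻¹' {a}) := fun n a =>
    measurable_name hT.measurable hf n (measurableSet_singleton a)
  have k' : ∀ a, MeasurableSet ((fun x => name T f n (T^[m] x)) ⁻¹' {a}) :=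
    measurableSet_comp_iterate hT.measurable (k n) m
  obtain ⟨φ, hφ⟩ : ∃ φ : (Fin m → Fin d) × (Fin n → Fin d) → Fin (m + n) → Fin d,
      name T f (m + n) = fun x => φ (name T f m x, name T f n (T^[m] x)) := by
    refine ⟨fun q => Fin.append q.1 q.2, funext fun x => funext fun i => ?_⟩
    refine Fin.addCases (fun i => ?_) (fun i => ?_) i
    · simp [name]
    · simp [name, add_comm m, Function.iterate_add_apply]
  have h2 : ∀ q, MeasurableSet ((fun x => (name T f m x, name T f n (T^[m] x))) ⁻¹' {q}) := by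
    intro q
    have h3 : (fun x => (name T f m x, name T f n (T^[m] x))) ⁻¹' {q} =
        name T f m ⁻¹' {q.1} ∩ (fun x => name T f n (T^[m] x)) ⁻¹' {q.2} := by
      ext x
      simp [Prod.ext_iff]
    rw [h3]
    exact (k m q.1).inter (k' q.2)
  have h6 := shannon_comp_le (μ := μ) h2 φ
  have h5 := shannon_prod_le (μ := μ) (k m) k'
  rw [shannon_comp_iterate hT (k n)] at h5
  rw [hφ]
  exact h6.trans h5

theorem rate {P : Fin d → Set X} (h : IsPartition P) : ∃ r, IsRate μ T P r := by
  obtain ⟨f, hf, rfl⟩ := h.fn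
  have s : Subadditive fun n => shannon μ (name T f n) := name_add hT hf
  refine ⟨_, (s.tendsto_lim ⟨0, ?_⟩).congr fun n => by rw [joinEnt_eq]⟩
  rintro _ ⟨n, rfl⟩
  exact div_nonneg (Finset.sum_nonneg fun a _ =>
    Real.negMulLog_nonneg measureReal_nonneg measureReal_le_one) n.cast_nonneg

theorem hKS_eq : hKS μ T = ksEntropy μ T := by
  have k : ∀ {d} (f : X → Fin d) r, IsRate μ T (fun i => f ⁻¹' {i}) r → limsup
      (fun n : ℕ => ENNReal.ofReal (shannon μ (name T f n) / n)) atTop = ENNReal.ofReal r :=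
    fun f r h => (ENNReal.tendsto_ofReal (h.congr fun n => by rw [joinEnt_eq])).limsup_eq
  refine le_antisymm (iSup_le fun d => iSup₂_le fun P hP => iSup₂_le fun r hr => ?_)
    (iSup_le fun d => iSup₂_le fun f hf => ?_)
  · obtain ⟨f, hf, rfl⟩ := hP.fn
    exact le_iSup_of_le d (le_iSup₂_of_le f hf (k f r hr).ge)
  · obtain ⟨r, hr⟩ := rate hT (part_of hf)
    exact le_iSup_of_le d (le_iSup₂_of_le _ (part_of hf) (le_iSup₂_of_le r hr (k f r hr).le))

end Vale.Agent.P108L
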